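import Mathlib

/-!
# P355: the pigeonhole for the 4-cycle of two bases

`six`: among six points of the unit circle two are within `60` degrees. `pigeon`: for two mutually
unbiased orthonormal bases of `ℂ⁶` and two vectors `c ≠ c'` of the first there are `d ≠ d'` in the
second with `Re (36 ⟨c,d⟩ ⟨d,c'⟩ ⟨c',d'⟩ ⟨d',c⟩) ≥ 1/2`.
-/

set_option autoImplicit false

namespace Vale.Agent.P355.H713

open Complex ComplexConjugate

/-- The inner product. -/
noncomputable def ip (a b : Fin 6 → ℂ) : ℂ := ∑ r, star (a r) * b r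

theorem ip_conj (a b : Fin 6 → ℂ) : conj (ip a b) = ip b a := by
  unfold ip
  rw [map_sum]
  refine Finset.sum_congr rfl fun r _ => ?_
  simp [mul_comm]

/-- The 4-cycle `36 ⟨c,d⟩ ⟨d,c'⟩ ⟨c',d'⟩ ⟨d',c⟩`. -/
noncomputable def cyc (c c' d d' : Fin 6 → ℂ) : ℂ := 36 * (ip c d * ip d c' * ip c' d' * ip d' c)

theorem cos_half {x : ℝ} (h : |x| ≤ Real.pi / 3) : 1 / 2 ≤ Real.cos x := by
  rw [← Real.cos_abs, ← Real.cos_pi_div_three]
  exact Real.cos_le_cos_of_nonneg_of_le_pi (abs_nonneg x) (by linarith [Real.pi_pos]) h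

/-- Among six points of the unit circle two are within `60` degrees. -/
theorem six (u : Fin 6 → ℂ) (hu : ∀ i, ‖u i‖ = 1) :
    ∃ i j, i ≠ j ∧ 1 / 2 ≤ (u i * conj (u j)).re := by
  by_contra hcon
  push Not at hcon
  have hw : ∀ i, ‖u i * conj (u 0)‖ = 1 := fun i => by rw [norm_mul, RCLike.norm_conj, hu, hu, one_mul]
  set θ : Fin 6 → ℝ := fun i => (u i * conj (u 0)).arg with hθ
  have hexp : ∀ i, u i * conj (u 0) = exp (θ i * I) := fun i => by
    have := norm_mul_exp_arg_mul_I (u i * conj (u 0))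
    rw [hw i] at this
    simpa using this.symm
  have h00 : u 0 * conj (u 0) = 1 := by
    rw [mul_conj, normSq_eq_norm_sq, hu 0]; norm_num
  have hre : ∀ i j, (u i * conj (u j)).re = Real.cos (θ i - θ j) := fun i j => by
    have h1 : u i * conj (u j) = (u i * conj (u 0)) * conj (u j * conj (u 0)) := by
      have : conj (u 0) * u 0 = 1 := by rw [mul_comm]; exact h00
      rw [map_mul, conj_conj]
      linear_combination (-(u i * conj (u j))) * this
    rw [h1, hexp i, hexp j, ← exp_conj, ← exp_add, map_mul, conj_ofReal, conj_I]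
    have h2 : (θ i : ℂ) * I + θ j * -I = ((θ i - θ j : ℝ) : ℂ) * I := by push_cast; ring
    rw [h2, exp_ofReal_mul_I_re]
  have hθ0 : θ 0 = 0 := by simp only [hθ]; rw [h00, arg_one]
  have hfar : ∀ i : Fin 6, i ≠ 0 → Real.pi / 3 < |θ i| := fun i hi => by
    by_contra h
    push Not at h
    have h1 := hcon i 0 hi
    rw [hre, hθ0, sub_zero] at h1
    linarith [cos_half h]
  have hpi : ∀ i, -Real.pi < θ i ∧ θ i ≤ Real.pi := fun i =>
    ⟨neg_pi_lt_arg _, arg_le_pi _⟩
  -- the four boxes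
  let f : Fin 5 → Fin 4 := fun i =>
    if 2 * Real.pi / 3 < θ i.succ then 0
    else if 0 < θ i.succ then 1
    else if θ i.succ < -(2 * Real.pi / 3) then 2 else 3
  obtain ⟨i, j, hij, hf⟩ := Fintype.exists_ne_map_eq_of_card_lt f (by simp)
  have hi := hfar i.succ (Fin.succ_ne_zero i)
  have hj := hfar j.succ (Fin.succ_ne_zero j)
  have hclose : |θ i.succ - θ j.succ| ≤ Real.pi / 3 := by
    have hpi' := hpi i.succ
    have hpj' := hpi j.succ
    have hp := Real.pi_pos
    simp only [f] at hf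
    rw [abs_le]
    rcases lt_abs.1 hi with hi | hi <;> rcases lt_abs.1 hj with hj | hj <;>
      split_ifs at hf <;> first | (exfalso; revert hf; decide) | (constructor <;> linarith)
  have h1 := hcon i.succ j.succ (fun h => hij (Fin.succ_injective _ h))
  rw [hre] at h1
  linarith [cos_half hclose]

/-- The end theorem of the pigeonhole: two mutually unbiased bases and `c ≠ c'`. -/
theorem pigeon (c c' : Fin 6 → ℂ) (D : Fin 6 → Fin 6 → ℂ)
    (h : ∀ k, ‖ip c (D k)‖ ^ 2 = 1 / 6) (h' : ∀ k, ‖ip c' (D k)‖ ^ 2 = 1 / 6) :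
    ∃ k l, k ≠ l ∧ 1 / 2 ≤ (cyc c c' (D k) (D l)).re := by
  have hn : ∀ k, ‖6 * (ip c (D k) * ip (D k) c')‖ = 1 := fun k => by
    have e1 : ‖ip (D k) c'‖ = ‖ip c' (D k)‖ := by rw [← ip_conj, RCLike.norm_conj]
    have e2 : (‖ip c (D k)‖ * ‖ip c' (D k)‖) ^ 2 = (1 / 6) ^ 2 := by
      rw [mul_pow, h, h']; norm_num
    have e3 : ‖ip c (D k)‖ * ‖ip c' (D k)‖ = 1 / 6 :=
      (pow_left_inj₀ (by positivity) (by norm_num) two_ne_zero).1 e2
    rw [norm_mul, norm_mul, e1, e3]
    norm_num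
  obtain ⟨i, j, hij, hr⟩ := six (fun k => 6 * (ip c (D k) * ip (D k) c')) hn
  refine ⟨i, j, hij, ?_⟩
  have e : cyc c c' (D i) (D j) =
      6 * (ip c (D i) * ip (D i) c') * conj (6 * (ip c (D j) * ip (D j) c')) := by
    unfold cyc
    simp only [map_mul, ip_conj]
    have : conj (6 : ℂ) = 6 := by
      have := conj_ofReal 6
      simpa using this
    rw [this]
    ring
  rw [e]
  exact hr

/-- Three vectors of the second basis: not all 4-cycles are `-1`. -/
theorem three (c c' : Fin 6 → ℂ) (D : Fin 3 → Fin 6 → ℂ)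
    (h : ∀ k, ip c (D k) ≠ 0) (h' : ∀ k, ip c' (D k) ≠ 0) :
    ∃ k l, k ≠ l ∧ cyc c c' (D k) (D l) ≠ -1 := by
  by_contra hcon
  push Not at hcon
  set z : Fin 3 → ℂ := fun k => 6 * (ip c (D k) * ip (D k) c') with hz
  have hz0 : ∀ k, z k ≠ 0 := fun k => by
    have h2 : ip (D k) c' ≠ 0 := by
      rw [← ip_conj]; exact (map_ne_zero _).2 (h' k)
    exact mul_ne_zero (by norm_num) (mul_ne_zero (h k) h2)
  have e : ∀ i j, cyc c c' (D i) (D j) = z i * conj (z j) := fun i j => by
    unfold cyc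
    simp only [hz, map_mul, ip_conj]
    have : conj (6 : ℂ) = 6 := by
      have := conj_ofReal 6
      simpa using this
    rw [this]
    ring
  have h01 := hcon 0 1 (by decide)
  have h02 := hcon 0 2 (by decide)
  have h12 := hcon 1 2 (by decide)
  rw [e] at h01 h02 h12
  -- z₁ conj z₁ > 0 but also = (z₀ conj z₁) (conj z₀ z₁) / |z₀|² etc.
  have k1 : conj (z 1) = conj (z 2) := mul_left_cancel₀ (hz0 0) (h01.trans h02.symm)
  rw [← k1, mul_conj] at h12
  have : (0 : ℝ) ≤ -1 := by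
    have h5 := congrArg Complex.re h12
    simp only [ofReal_re, neg_re, one_re] at h5
    rw [← h5]; exact normSq_nonneg _
  linarith

end Vale.Agent.P355.H713
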